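import Vale.Agent.P283R.Kw.Iz
import Vale.Agent.P283R.Tp.Der
import Vale.Agent.P287D.Ku.Ex

/-!
# P283R: inversion of adjunction for log canonicity along a place centred at a klt point
-/

open Set

noncomputable section

namespace Vale.Agent.P283R.Kw

open Vale.Agent.P287D Vale.Agent.P297Z Vale.Agent.P283M

section sec

variable {K : Type} [Field K] [Algebra ℂ K] {n : ℕ} {β b : BD K}

theorem sec_one (hK : FF K (n + 1)) (hβ : CarQ β) (bβ : Big β) (P : Pl K) :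
    ∃ (m : ℕ) (w : K), w ≠ 0 ∧ Sec ((m : ℝ) • β) w ∧ 0 < (dv w + (m : ℝ) • β) P := by
  classical
  obtain ⟨ε, e, G, r⟩ := bβ {1, P.t⁻¹}
  have a := r.add ((Rep.refl (mx_nonneg (s := {1, P.t⁻¹}) (by simp))).smul e.le)
  rw [sub_add_cancel] at a
  have k : (0 : ℝ) < mx {1, P.t⁻¹} P := by
    have := P.le_mz (s := {1, P.t⁻¹}) (f := P.t⁻¹) (by simp) (inv_ne_zero P.t_ne)
    rw [Pl.ord_inv, P.ord_t] at this
    rw [mx_apply]
    exact_mod_cast (by omega : 0 < P.mz {1, P.t⁻¹})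
  refine On.rep_ind hK hβ (p := fun _ G => 0 < G P → ∃ (m : ℕ) (w : K), w ≠ 0 ∧
    Sec ((m : ℝ) • β) w ∧ 0 < (dv w + (m : ℝ) • β) P) (fun z => absurd z (lt_irrefl _))
    (fun _ G _ G' x y z => ?_) (fun _ G c hc x z => x (pos_of_mul_pos_right z hc))
    (fun m w w0 hw z => ⟨m, w, w0, hw, z⟩) a
    (add_pos_of_nonneg_of_pos (r.nonneg P) (mul_pos e k))
  by_cases c : 0 < G P
  · exact x c
  · exact y (by rw [Pi.add_apply] at z; linarith)

theorem sec_fin (hK : FF K (n + 1)) (hβ : CarQ β) (bβ : Big β) (h0 : 0 ≤ β) (T : Finset (Pl K)) :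
    ∃ (m : ℕ) (w : K), 0 < m ∧ w ≠ 0 ∧ Sec ((m : ℝ) • β) w ∧
      ∀ P ∈ T, 0 < (dv w + (m : ℝ) • β) P := by
  classical
  induction T using Finset.induction_on with
  | empty => exact ⟨1, 1, one_pos, one_ne_zero, P287D.sec_one.2 (by simpa using h0), by simp⟩
  | insert P T _ ih =>
    obtain ⟨m, w, m0, w0, a, c⟩ := ih
    obtain ⟨m', w', w1, a', c'⟩ := sec_one hK hβ bβ P
    refine ⟨m + m', w * w', by omega, mul_ne_zero w0 w1, Loq.sec_mul a a', fun Q hQ => ?_⟩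
    have e : dv (w * w') + ((m + m' : ℕ) : ℝ) • β = (dv w + (m : ℝ) • β) + (dv w' + (m' : ℝ) • β) := by
      rw [dv_mul w0 w1, Nat.cast_add]
      module
    rw [e]
    rcases Finset.mem_insert.1 hQ with rfl | hQ
    · exact add_pos_of_nonneg_of_pos (a.resolve_left w0 Q) c'
    · exact add_pos_of_pos_of_nonneg (c Q hQ) (a'.resolve_left w1 Q)

/-- a member of a free system through all non-klt places -/
theorem sec (hK : FF K n) (hb : b ∈ Car K) : ∃ (s : Finset K) (w : K), Nz s ∧ w ≠ 0 ∧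
    0 ≤ dv w + mx s ∧ ∀ Q, dsc n b Q ≤ -1 → 0 < (dv w + mx s) Q := by
  obtain _ | n := n
  · exact ⟨{1}, 1, .single one_ne_zero, one_ne_zero, fun Q => (Bm.no_pl hK Q).elim,
      fun Q => (Bm.no_pl hK Q).elim⟩
  obtain ⟨s, s1, s2⟩ := exists_big hK
  obtain ⟨T, hT⟩ := P287D.Pr.fin_chk hK (toFinite {b, mx s})
    (by rintro _ (rfl | rfl); exacts [hb, mx_mem_Car _])
  obtain ⟨m, w, m0, w0, a, c⟩ := sec_fin hK (carQ_mx s) s2 (mx_nonneg s1) T
  obtain ⟨s', z, e⟩ := exists_mx_nsmul s m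
  refine ⟨s', w, z, w0, e ▸ a.resolve_left w0, fun Q hQ => ?_⟩
  obtain ⟨P, hP, -, k⟩ := (hT b (Submodule.subset_span (by simp)) Q 0 le_rfl).1 one_pos
    (by linarith)
  exact e ▸ On.CLe.sec (k _ (Submodule.subset_span (by simp))) m0 w0 a (c P hP)

end sec

variable {F : Type} [Field F] [Algebra ℂ F] {n : ℕ} {S : Subalgebra ℂ F} {p : Ideal S}
  {E v : Pl F} {G0 G : BD F}

/-- a system of functions on `Spec S` with a given restriction to `E` -/
theorem lift (hA : Aff (n + 1) S) (E : Pl F) {s : Finset E.κ} {w : E.κ} (hs : Nz s) (w0 : w ≠ 0) :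
    ∃ (Z : BD F) (g : S), Nef Z ∧ (∀ q R, Cen S q R → Z R ≤ 0) ∧ (g : F) ≠ 0 ∧
      (dv (g : F) + Z) E = 0 ∧ res E (dv (g : F) + Z) = dv w + mx s := by
  classical
  have hK := hA.ff
  choose L L1 L2 using Bm.rd_surj E
  have un : ∀ a, a ≠ 0 → L a ≠ 0 ∧ E.ord (L a) = 0 := fun a a0 => by
    have := mt (Bm.rd_zero_iff E (L1 a)).2 (by rwa [L2])
    rw [not_or, not_lt] at this
    exact ⟨this.1, le_antisymm this.2 (Pl.ord_nonneg_of_mem _ (L1 a))⟩
  obtain ⟨a, ha, a0⟩ := hs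
  have nz : Nz (s.image L) := ⟨_, Finset.mem_image_of_mem L ha, (un a a0).1⟩
  have mz : E.mz (s.image L) = 0 := by
    rw [E.mz_eq (Finset.mem_image_of_mem L ha) (un a a0).1 fun f hf _ => by
      obtain ⟨c, -, rfl⟩ := Finset.mem_image.1 hf
      rw [(un a a0).2]
      exact Pl.ord_nonneg_of_mem _ (L1 c), (un a a0).2, neg_zero]
  have rs : E.rs (s.image L) = s := by
    ext c
    simp [Pl.rs, mz, L2]
  have := hA.isFrac
  obtain ⟨⟨d, hd⟩, k⟩ := IsLocalization.exist_integer_multiples_of_finset (nonZeroDivisors S)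
    (insert (L w) (s.image L))
  have d0 : (d : F) ≠ 0 := fun e => nonZeroDivisors.ne_zero hd (Subtype.ext e)
  obtain ⟨g, hg⟩ := k _ (Finset.mem_insert_self _ _)
  have eg : (g : F) = d * L w := hg
  have e : dv (g : F) + (mx (s.image L) + -dv (d : F)) = dv (L w) + mx (s.image L) := by
    rw [eg, dv_mul d0 (un w w0).1]
    abel
  refine ⟨mx (s.image L) + -dv (d : F), g, (nef_mx _).add_prn (neg_mem (dv_mem_Prn _)),
    fun q R hR => ?_, eg ▸ mul_ne_zero d0 (un w w0).1, ?_, ?_⟩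
  · obtain ⟨f, hf, f0, c⟩ := R.exists_mz nz
    obtain ⟨x, hx⟩ := k f (Finset.mem_insert_of_mem hf)
    have := Pl.ord_nonneg_of_mem R.toPlace (hR x).1
    rw [show (x : F) = d * f from hx, Pl.ord_mul _ d0 f0] at this
    rw [Pi.add_apply, Pi.neg_apply, mx_apply, dv_apply, c]
    exact_mod_cast (by omega : -R.ord f + -R.ord d ≤ 0)
  · rw [e, Pi.add_apply, mx_apply, dv_apply, mz, (un w w0).2]
    simp
  · rw [e, P287D.res_add hK E (dv_mem_Car _) (mx_mem_Car _), P287D.res_mx hK, rs,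
      P287D.res_dv_unit hK E (un w w0).1 (un w w0).2, L2]

theorem kaw (hA : Aff (n + 1) S) (hN : IsIntegrallyClosed S)
    (res : ∀ a : S, ∃ c : ℂ, a - algebraMap ℂ S c ∈ p) (hG0 : Nef (-G0))
    (klt : ∀ q ≤ p, ∀ P, Cen S q P → -1 < dsc (n + 1) G0 P)
    (bdy0 : ∀ R, PDat S p R → dsc (n + 1) G0 R ≤ 0) (hG : Nef (-G))
    (bdy : ∀ R, PDat S p R → dsc (n + 1) G R ≤ 0) (hE : Cen S p E) (dE : dsc (n + 1) G E = -1)
    (lc : ∀ Q, -1 ≤ dsc n (adj n E G) Q) (hv : Cen S p v) : -1 ≤ dsc (n + 1) G v := by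
  by_contra! nv
  have hK := hA.ff
  have hp := Hr.cen_prime hE
  have cG : G ∈ Car F := neg_mem_iff.1 hG.car
  obtain ⟨u, hu⟩ := hA.fg
  obtain ⟨s, w, hs, w0, s1, s2⟩ := sec (Gm.ff_κ E hK) (a1 n F hK E G cG).1
  obtain ⟨Z, g₀, z1, z2, z3, z4, z5⟩ := lift hA E hs w0
  obtain ⟨C, hC⟩ := iz hA hN res hG0 klt bdy0 hE hv (E.ord g₀)
  have bd : ∀ g ∈ Lo S p, g ≠ 0 → (dv g + Z) E = 0 → v.ord g ≤ C := fun g a b c =>
    hC g a b (Int.cast_injective (α := ℝ) (add_right_cancel (c.trans z4.symm))).le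
  obtain ⟨k, ⟨g, g1, g2, g3, g4, rfl⟩, mxm⟩ := Int.exists_greatest_of_bdd
    (P := fun k => ∃ g ∈ Lo S p, g ≠ 0 ∧ (dv g + Z) E = 0 ∧
      P287D.res E (dv g + Z) = dv w + mx s ∧ v.ord g = k)
    ⟨C, fun k ⟨g, a, b, c, _, e⟩ => e ▸ bd g a b c⟩
    ⟨_, g₀, Dr13.coe_mem hp g₀, z3, z4, z5, rfl⟩
  have v0 : (0 : ℝ) ≤ v.ord g := by exact_mod_cast Pl.ord_nonneg_of_mem _ (Hr.cen_lo hv g1)
  obtain ⟨ε, e0, e1, e2⟩ : ∃ ε : ℝ, 0 < ε ∧ ε ≤ 1 ∧ ε * (v.ord g + 1) ≤ -1 - dsc (n + 1) G v :=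
    ⟨min 1 ((-1 - dsc (n + 1) G v) / (v.ord g + 1)), lt_min one_pos (div_pos (by linarith)
      (by linarith)), min_le_left _ _, (le_div_iff₀ (by linarith)).1 (min_le_right _ _)⟩
  have n0 : Nef (dv g + Z) := (smp_dv g).nef.add z1
  have n1 := hG.add (n0.smul e0.le)
  have cH : -(ε • (dv g + Z) + inf u) ∈ Car F :=
    neg_mem (add_mem (n0.smul e0.le).car (Kl.inf_smp u).car)
  have e : -(G + -(ε • (dv g + Z) + inf u)) = inf u + (-G + ε • (dv g + Z)) := by abel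
  have d : ∀ q P, Cen S q P → dsc (n + 1) (G + -(ε • (dv g + Z) + inf u)) P =
      dsc (n + 1) G P + ε * (dv g + Z) P := fun q P hP => by
    rw [P287D.Pr.dsc_add, Pi.neg_apply, Pi.add_apply, inf0 hu hP, add_zero, sub_neg_eq_add]
    rfl
  obtain ⟨f, f1, f2, f3⟩ := Ku.uext n F hK E _ 1 (e ▸ (Kl.inf_smp u).nef.add n1)
    (e ▸ (big hA hu).add_nef n1) (by rw [d p E hE, g3, dE]; simp) fun Q => .inr (by
      have r := P287D.res_nonneg hK E (Kl.inf_smp u).car (Kl.inf_nn u) (inf0 hu hE) Q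
      rw [(a4 n F hK E G cG _ cH).1, P287D.Pr.dsc_add, P287D.res_neg hK E (neg_mem_iff.1 cH),
        P287D.res_add hK E (n0.smul e0.le).car (Kl.inf_smp u).car, P287D.res_smul hK E ε n0.car, g4]
      simp only [Pi.neg_apply, Pi.add_apply (ε • _), Pi.smul_apply, smul_eq_mul, Pl.ord_one,
        Pi.zero_apply] at r ⊢
      rcases (lc Q).eq_or_lt with x | x
      · have := mul_pos e0 (s2 Q x.ge)
        push_cast
        linarith
      · have := mul_nonneg e0.le (s1 Q)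
        push_cast
        linarith)
  have fu := mt (Bm.rd_zero_iff E f1).2 (f2 ▸ one_ne_zero)
  rw [not_or, not_lt] at fu
  have fE : E.ord f = 0 := le_antisymm fu.2 (Pl.ord_nonneg_of_mem _ f1)
  have ee : dv (f * g) + Z = dv f + (dv g + Z) := by rw [dv_mul fu.1 g2, add_assoc]
  have := mxm _ ⟨f * g, Hr.lo_of hA hN hp fun R hR => ?_, mul_ne_zero fu.1 g2, by
    rw [ee, Pi.add_apply, g3, dv_apply, fE]; simp, by
    rw [ee, P287D.res_add hK E (dv_mem_Car _) n0.car, g4, P287D.res_dv_unit hK E fu.1 fE, f2, dv_one,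
      zero_add], rfl⟩
  · have x := (f3 v fun z => nv.ne (z ▸ dE)).resolve_left fu.1
    rw [d p v hv, Pi.add_apply, dv_apply] at x
    rw [Pl.ord_mul _ fu.1 g2] at this
    have y : (v.ord f : ℝ) ≤ 0 := by exact_mod_cast (by omega : v.ord f ≤ 0)
    nlinarith [z2 p v hv]
  · by_cases c : R = E
    · exact c ▸ mul_mem f1 (Hr.cen_lo hE g1)
    obtain ⟨q, hq, a, -⟩ := id hR
    have x := (f3 R c).resolve_left fu.1
    rw [d q R a, Pi.add_apply, dv_apply] at x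
    have y : (0 : ℝ) ≤ R.ord g := by
      exact_mod_cast Pl.ord_nonneg_of_mem _ (Hr.cen_lo a (Dr13.lo_le hq g1))
    have z : (-1 : ℝ) < R.ord f + R.ord g := by nlinarith [z2 q R a, bdy R hR]
    rw [← Pl.ord_nonneg_iff _ (mul_ne_zero fu.1 g2), Pl.ord_mul _ fu.1 g2]
    have : -1 < R.ord f + R.ord g := by exact_mod_cast z
    omega

end Vale.Agent.P283R.Kw
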