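import Vale.Agent.P283R.Tp.Hrt
import Vale.Agent.P283M.Kl.Bas
import Vale.Agent.P287D.On.Cen
import Vale.Agent.P287D.Ku.Uk
import Vale.Agent.P287D.Pr.Lr

/-!
# P283R: the fibre of a resolution over a klt point is connected
-/

open Set

noncomputable section

namespace Vale.Agent.P283R.Kw

open Vale.Agent.P287D Vale.Agent.P297Z Vale.Agent.P283M

variable {F : Type} [Field F] [Algebra ℂ F] {n N : ℕ} {S : Subalgebra ℂ F} {p q : Ideal S}
  {u : Finset F} {P R D E v : Pl F} {G0 : BD F} {g : F}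

open Classical in
theorem bf_eq (hu : Algebra.adjoin ℂ (u : Set F) = S) : On.Bf (insert 1 u) 1 = S := by
  refine le_antisymm (Algebra.adjoin_le ?_) (hu ▸ Algebra.adjoin_le fun a ha => ?_)
  · rintro _ ⟨a, ha, rfl⟩
    rcases Finset.mem_insert.1 ha with rfl | ha
    · simp
    · simpa using (hu ▸ Algebra.subset_adjoin ha : a ∈ S)
  · simpa using On.mem_Bf (s := insert 1 u) (f := 1) (Finset.mem_insert_of_mem ha)

theorem mem_af (hu : Algebra.adjoin ℂ (u : Set F) = S) (h : g ∈ S) : g ∈ On.Af (inf u) 1 :=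
  On.Bf_le one_ne_zero (bf_eq hu ▸ h)

theorem af_mem (hA : Aff N S) (hN : IsIntegrallyClosed S)
    (hu : Algebra.adjoin ℂ (u : Set F) = S) (h : g ∈ On.Af (inf u) 1) : g ∈ S := by
  classical
  have i := On.int_Af hA.ff (Finset.mem_insert_self 1 u) one_ne_zero g h
  rw [bf_eq hu] at i
  have := hA.isFrac
  obtain ⟨y, rfl⟩ := IsIntegrallyClosed.algebraMap_eq_of_integral i
  exact y.2

theorem ch (h : Ov u P) : On.Ch (inf u) 1 P := by
  classical
  refine On.ch_of (Finset.mem_insert_self 1 u) one_ne_zero fun a ha => ?_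
  rw [div_one]
  rcases Finset.mem_insert.1 ha with rfl | ha
  exacts [one_mem _, h a ha]

theorem ov (hu : Algebra.adjoin ℂ (u : Set F) = S) (h : Cen S q P) : Ov u P := fun a ha =>
  (h ⟨a, hu ▸ Algebra.subset_adjoin ha⟩).1

theorem inf0 (hu : Algebra.adjoin ℂ (u : Set F) = S) (h : Cen S q P) : inf u P = 0 :=
  Kl.inf_zero.2 (ov hu h)

theorem big (hA : Aff N S) (hu : Algebra.adjoin ℂ (u : Set F) = S) : Big (inf u) := by
  classical
  refine (big_mx_iff hA.ff).2 fun f => ?_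
  have k : ∀ a : S, (a : F) ∈ rts (insert 1 u) := fun a => by
    have : S ≤ (rts (insert 1 u)).toSubalgebra := hu ▸ Algebra.adjoin_le fun b hb => by
      simpa using div_mem_rts (s := insert 1 u) (Finset.mem_insert_of_mem hb)
        (Finset.mem_insert_self 1 u)
    exact this a.2
  obtain ⟨s, t, rfl⟩ := hA.fr f
  exact isAlgebraic_algebraMap (⟨_, div_mem (k s) (k t)⟩ : rts (insert 1 u))

theorem cen_of (h : ∀ a ∈ S, a ∈ P.ring) : ∃ q, Cen S q P :=
  ⟨RingHom.ker (Bm.rdh P S h), fun a => ⟨h a a.2, Iff.rfl⟩⟩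

/-- a larger centre -/
theorem cen_up (hu : Algebra.adjoin ℂ (u : Set F) = S) (hR : Cen S p R) (e : CLe (inf u) R D) :
    ∃ q ≤ p, Cen S q D := by
  have c := ch (ov hu hR)
  obtain ⟨q, hq⟩ := cen_of fun a ha => (c.of_cle e).mem a (mem_af hu ha)
  exact ⟨q, fun a ha => (Hr.cen_iff hR a).2
    (((Hr.cen_iff hq a).1 ha).imp_right (c.pos e _ (mem_af hu a.2))), hq⟩

theorem cle_of (hA : Aff N S) (hN : IsIntegrallyClosed S) (hu : Algebra.adjoin ℂ (u : Set F) = S)
    (hR : Cen S p R) (hD : Cen S q D) (e : q ≤ p) : CLe (inf u) R D :=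
  (ch (ov hu hR)).cle hA.ff (carQ_mx _) (ch (ov hu hD)) fun b hb w =>
    ((Hr.cen_iff hR ⟨b, af_mem hA hN hu hb⟩).1 (e ((Hr.cen_iff hD _).2 (.inr w)))).resolve_left
      fun z => by simp [show b = 0 from z] at w

theorem eq_of_le (res : ∀ a : S, ∃ c : ℂ, a - algebraMap ℂ S c ∈ p) (hR : Cen S q R) (e : p ≤ q) :
    q = p := by
  refine le_antisymm (fun a ha => ?_) e
  obtain ⟨c, hc⟩ := res a
  have k : algebraMap ℂ S c ∈ q := by simpa using q.sub_mem ha (e hc)
  have k2 : algebraMap ℂ F c = 0 :=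
    ((Hr.cen_iff hR _).1 k).resolve_right (R.ord_const c).le.not_gt
  rwa [(map_eq_zero _).1 k2, map_zero, sub_zero] at hc

/-- the centre of a place through a closed point -/
theorem cen_down (hu : Algebra.adjoin ℂ (u : Set F) = S)
    (res : ∀ a : S, ∃ c : ℂ, a - algebraMap ℂ S c ∈ p) (hD : Cen S p D) (e : CLe (inf u) R D) :
    Cen S p R := by
  classical
  have o : Ov u R := Kl.inf_zero.1 (by
    obtain ⟨a, ha, a0, k⟩ := R.exists_mz (s := insert 1 u)
      ⟨1, Finset.mem_insert_self _ _, one_ne_zero⟩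
    have k0 : inf u R = -R.ord a := by rw [inf, mx_apply, k, Int.cast_neg]
    rcases Finset.mem_insert.1 ha with rfl | hb
    · simpa using k0
    obtain ⟨c, hc⟩ := res ⟨a, hu ▸ Algebra.subset_adjoin hb⟩
    rcases (Hr.cen_iff hD _).1 hc with z | z
    · rw [k0, show a = algebraMap ℂ F c from sub_eq_zero.1 z, R.ord_const]; simp
    have b0 : a - algebraMap ℂ F c ≠ 0 := fun w => by
      rw [show ((⟨a, _⟩ - algebraMap ℂ S c : S) : F) = 0 from w] at z; simp at z
    have m : a - algebraMap ℂ F c ∈ Submodule.span ℂ ((insert 1 u : Finset F) : Set F) :=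
      sub_mem (Submodule.subset_span ha) (Algebra.algebraMap_eq_smul_one (A := F) c ▸
        Submodule.smul_mem _ c (Submodule.subset_span (Finset.mem_insert_self 1 u)))
    have k1 := e _ ((sec_of_span m).rep b0) (by
      rw [Pi.add_apply, show mx (insert 1 u) D = 0 from inf0 hu hD, add_zero, dv_apply]
      exact_mod_cast z)
    rw [Pi.add_apply, show mx (insert 1 u) R = _ from k0, dv_apply] at k1
    by_cases c0 : algebraMap ℂ F c = 0
    · simp [c0] at k1
    have k2 := Pl.min_ord_le_add R.toPlace b0 c0 (by simpa using a0)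
    rw [sub_add_cancel, R.ord_const] at k2
    have k3 : R.ord a < R.ord (a - algebraMap ℂ F c) := by exact_mod_cast (by linarith :
      (R.ord a : ℝ) < R.ord (a - algebraMap ℂ F c))
    have k4 := Kl.inf_nn u R
    rw [Pi.zero_apply, k0] at k4
    have k5 : (0 : ℝ) ≤ R.ord a := by exact_mod_cast (by omega : 0 ≤ R.ord a)
    linarith)
  have c := ch o
  obtain ⟨q, hq⟩ := cen_of fun a ha => c.mem a (mem_af hu ha)
  exact eq_of_le res hq (fun a ha => (Hr.cen_iff hq a).2
    (((Hr.cen_iff hD a).1 ha).imp_right (c.pos e _ (mem_af hu a.2)))) ▸ hq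

theorem num_mem (hP : Cen S p P) {a b : S} (hb : b ∉ p)
    (k : (a : F) / b = 0 ∨ 0 < P.ord ((a : F) / b)) : a ∈ p := by
  refine (Hr.cen_iff hP a).2 (or_iff_not_imp_left.2 fun a0 => ?_)
  have := k.resolve_left (div_ne_zero a0 (Hr.ne_of_notMem hb))
  rwa [Pl.ord_div _ a0 (Hr.ne_of_notMem hb), Hr.cen_ord hP hb, sub_zero] at this

/-- the order of the maximal ideal -/
theorem exists_gen (hA : Aff N S) (hE : Cen S p E) : ∃ z : Finset F,
    (∀ P, Cen S p P → mx z P ≤ -1) ∧ (∀ q P, Cen S q P → mx z P ≤ 0) ∧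
      ∀ q P, Cen S q P → ¬ p ≤ q → mx z P = 0 := by
  classical
  have := hA.noeth
  obtain ⟨t, ht⟩ := IsNoetherian.noetherian p
  have m : ∀ a ∈ t, a ∈ p := fun a ha => ht ▸ Submodule.subset_span ha
  have nz : Nz (t.image Subtype.val) := by_contra fun k => by
    have b : p ≤ ⊥ := ht ▸ Submodule.span_le.2 fun a ha => Subtype.ext
      (by_contra fun c => k ⟨a, Finset.mem_image_of_mem _ ha, c⟩)
    obtain ⟨a, b', e⟩ := hA.fr E.t
    have a0 : (a : F) ≠ 0 := fun w => E.t_ne (by simp [e, w])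
    have b0 : (b' : F) ≠ 0 := fun w => E.t_ne (by simp [e, w])
    have := E.ord_t
    rw [e, Pl.ord_div _ a0 b0, Hr.cen_ord hE fun w => a0 (congrArg Subtype.val (b w)),
      Hr.cen_ord hE fun w => b0 (congrArg Subtype.val (b w))] at this
    simp at this
  have le : ∀ q P, Cen S q P → P.mz (t.image Subtype.val) ≤ 0 := fun q P hP =>
    P.mz_le nz fun f hf _ => by
      obtain ⟨a, -, rfl⟩ := Finset.mem_image.1 hf
      exact neg_nonpos.2 (Pl.ord_nonneg_of_mem _ (hP a).1)
  refine ⟨t.image Subtype.val, fun P hP => ?_, fun q P hP => ?_, fun q P hP k => ?_⟩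
  · have : P.mz (t.image Subtype.val) ≤ -1 := P.mz_le nz fun f hf f0 => by
      obtain ⟨a, ha, rfl⟩ := Finset.mem_image.1 hf
      have := ((Hr.cen_iff hP a).1 (m a ha)).resolve_left f0
      omega
    rw [mx_apply]
    exact_mod_cast this
  · rw [mx_apply]
    exact_mod_cast le q P hP
  · obtain ⟨a, ha, hq⟩ := not_subset.1 fun w : (t : Set S) ⊆ q => k (ht ▸ Submodule.span_le.2 w)
    have := P.le_mz (Finset.mem_image_of_mem Subtype.val ha) (Hr.ne_of_notMem hq)
    rw [Hr.cen_ord hP hq] at this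
    rw [mx_apply]
    exact_mod_cast le_antisymm (le q P hP) this

theorem aj_pos {Γ : BD F} (h : dsc N Γ P ≤ -1) (k : Aj N Γ P g) : g = 0 ∨ 0 < P.ord g :=
  k.imp_right fun k => by exact_mod_cast (by linarith : (0 : ℝ) < P.ord g)

theorem aj_mem {Γ : BD F} (h : dsc N Γ P ≤ 0) (k : Aj N Γ P g) : g ∈ P.ring := by
  by_cases g0 : g = 0
  · exact g0 ▸ zero_mem _
  have : -1 < P.ord g := by exact_mod_cast (by linarith [k.resolve_left g0] : (-1 : ℝ) < P.ord g)
  exact (Pl.ord_nonneg_iff _ g0).1 (by omega)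

/-- a property which passes between prime divisors over `p` that meet on a smooth model passes to
all places centred at `p` -/
theorem conn (hA : Aff (n + 1) S) (hN : IsIntegrallyClosed S)
    (hu : Algebra.adjoin ℂ (u : Set F) = S) (res : ∀ a : S, ∃ c : ℂ, a - algebraMap ℂ S c ∈ p)
    (hG : Nef (-G0)) (klt : ∀ q ≤ p, ∀ P, Cen S q P → -1 < dsc (n + 1) G0 P)
    (bdy : ∀ R, PDat S p R → dsc (n + 1) G0 R ≤ 0) (hE : Cen S p E) (hv : Cen S p v)
    {C : Pl F → Prop} (cE : C E)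
    (st : ∀ (s : Finset F) κ T h, LS n (mx s) κ T h → Dsc (mx s) (inf u) → ∀ D ∈ T, ∀ D' ∈ T, ∀ R,
      Cen S p D → Cen S p D' → 0 < h D R → 0 < h D' R → C D → C D') : C v := by
  classical
  by_contra nv
  have hK := hA.ff
  obtain ⟨z, z1, z2, z3⟩ := exists_gen hA hE
  obtain ⟨c, c0, c1, c2⟩ : ∃ c : ℝ, 0 ≤ c ∧ dsc (n + 1) G0 E + 1 ≤ c ∧ dsc (n + 1) G0 v + 1 ≤ c :=
    ⟨max 0 (max _ _), le_max_left _ _, le_max_of_le_right (le_max_left _ _),
      le_max_of_le_right (le_max_right _ _)⟩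
  obtain ⟨Γ, e⟩ : ∃ Γ, -Γ = inf u + (-G0 + c • mx z) := ⟨-_, neg_neg _⟩
  have n1 := hG.add ((nef_mx z).smul c0)
  have n2 : Nef (-Γ) := e ▸ (Kl.inf_smp u).nef.add n1
  have d : ∀ q P, Cen S q P → dsc (n + 1) Γ P = dsc (n + 1) G0 P + c * mx z P := fun q P hP => by
    have := congrFun e P
    simp only [Pi.neg_apply, Pi.add_apply, Pi.smul_apply, smul_eq_mul, inf0 hu hP] at this
    simp only [dsc, Pi.sub_apply]
    linarith
  obtain ⟨s, κ, T, h, l, t0, sκ, sB⟩ := exists_ls hK (toFinite {E, v}) (toFinite {Γ, inf u})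
    (by rintro _ (rfl | rfl); exacts [neg_mem_iff.1 n2.car, (Kl.inf_smp u).car])
  have dΛ := (sB (inf u) (by simp)).1
  let c1' : Pl F → Prop := fun D => Cen S p D ∧ C D
  let U : Bool → Finset (Pl F) := fun i =>
    T.filter fun D => bif i then c1' D else ¬ c1' D ∧ dsc (n + 1) Γ D ≤ -1
  have nn : ∀ i, ∀ D ∈ U i, 0 ≤ h D := fun i D hD => l.nn (l.on D (Finset.mem_filter.1 hD).1)
  have zr : ∀ i P, (∑ D ∈ U i, h D) P = 0 ↔ ∀ D ∈ U i, h D P = 0 := fun i P => by
    rw [Finset.sum_apply]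
    exact Finset.sum_eq_zero_iff_of_nonneg fun D hD => nn i D hD P
  have cov : ∀ P, ∃ i, (∑ D ∈ U i, h D) P = 0 := fun P => by
    by_contra! k
    obtain ⟨D, hD, a⟩ := by simpa only [not_forall] using mt (zr true P).2 (k true)
    obtain ⟨D', hD', a'⟩ := by simpa only [not_forall] using mt (zr false P).2 (k false)
    have b := (nn _ D hD P).lt_of_ne' a
    have b' := (nn _ D' hD' P).lt_of_ne' a'
    obtain ⟨m, x1, x2⟩ := Finset.mem_filter.1 hD
    obtain ⟨m', y1, y2⟩ := Finset.mem_filter.1 hD'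
    obtain ⟨q, hq, w⟩ := cen_up hu (cen_down hu res x1 (l.cle (l.on D m) b dΛ))
      (l.cle (l.on D' m') b' dΛ)
    by_cases f : p ≤ q
    · obtain rfl := le_antisymm hq f
      exact y1 ⟨w, st s κ T h l dΛ D m D' m' P x1 w b b' x2⟩
    · rw [d q D' w, z3 q D' w f, mul_zero, add_zero] at y2
      exact (klt q hq D' w).not_ge y2
  have kl : ∀ P, (∑ D ∈ U true, h D) P = 0 → (∑ D ∈ U false, h D) P = 0 →
      -1 < dsc (n + 1) Γ P := fun P a b => by
    have := l.gt (Q := P) (sκ.sub (sB Γ (by simp))) le_rfl one_pos fun D m w => by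
      by_contra! k
      by_cases f : c1' D
      · exact w.ne' ((zr _ P).1 a D (Finset.mem_filter.2 ⟨m, f⟩))
      · exact w.ne' ((zr _ P).1 b D (Finset.mem_filter.2 ⟨m, f, by linarith⟩))
    linarith
  obtain ⟨f, hf⟩ := Ku.ukv (n + 1) F hK Γ Bool (fun i => ∑ D ∈ U i, h D)
    (fun i => bif i then 0 else 1) n2 (e ▸ (big hA hu).add_nef n1)
    (fun i => ⟨sum_mem fun D _ => CarZ.car (l.hz D), Finset.sum_nonneg (nn i)⟩) cov (by
      rintro (_ | _) (_ | _) P a b
      · exact .inl (sub_self _)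
      · exact .inr (by simpa using kl P b a)
      · exact .inr (by simpa using kl P a b)
      · exact .inl (sub_self _))
  obtain ⟨a, b, hb, rfl⟩ : f ∈ Lo S p := Hr.lo_of hA hN (Hr.cen_prime hE) fun R hR => by
    obtain ⟨q, -, w, -⟩ := id hR
    have k : dsc (n + 1) Γ R ≤ 0 := by
      rw [d q R w]
      nlinarith [bdy R hR, z2 q R w]
    obtain ⟨i, hi⟩ := cov R
    have := aj_mem k (hf i R hi)
    cases i
    · simpa using add_mem this (one_mem _)
    · simpa using this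
  have one : ∀ i, ∀ D ∈ U i, (∑ D ∈ U (!i), h D) D = 0 := fun i D hD => by
    obtain ⟨j, hj⟩ := cov D
    have o := l.on D (Finset.mem_filter.1 hD).1
    by_cases f : j = i
    · subst f
      have := (zr _ D).1 hj D hD
      rw [(l.hull D o).2 D o, D.δ_self] at this
      exact absurd this one_ne_zero
    · rwa [← Bool.eq_not_iff.2 f]
  have dE : dsc (n + 1) Γ E ≤ -1 := by rw [d p E hE]; nlinarith [z1 E hE]
  have dv' : dsc (n + 1) Γ v ≤ -1 := by rw [d p v hv]; nlinarith [z1 v hv]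
  have k1 := aj_pos dE (hf false E (one true E
    (Finset.mem_filter.2 ⟨t0 E (by simp), hE, cE⟩)))
  have k2 := aj_pos dv' (hf true v (one false v
    (Finset.mem_filter.2 ⟨t0 v (by simp), fun w => nv w.2, dv'⟩)))
  simp only [cond_true, cond_false, sub_zero] at k1 k2
  rw [div_sub_one (Hr.ne_of_notMem hb)] at k1
  exact hb (by simpa using p.sub_mem (num_mem hv hb k2) (num_mem hE (a := a - b) hb k1))

end Vale.Agent.P283R.Kw
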