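import Vale.Agent.P283R.Kw.Cn
import Vale.Agent.P283R.Iz.Stp

/-!
# P283R: places centred at a klt point are comparable
-/

namespace Vale.Agent.P283R.Kw

open Vale.Agent.P287D

variable {F : Type} [Field F] [Algebra ℂ F] {n : ℕ} {S : Subalgebra ℂ F} {p : Ideal S}
  {E v : Pl F} {G0 : BD F}

theorem iz (hA : Aff (n + 1) S) (hN : IsIntegrallyClosed S)
    (res : ∀ a : S, ∃ c : ℂ, a - algebraMap ℂ S c ∈ p) (hG : Nef (-G0))
    (klt : ∀ q ≤ p, ∀ P, Cen S q P → -1 < dsc (n + 1) G0 P)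
    (bdy : ∀ R, PDat S p R → dsc (n + 1) G0 R ≤ 0) (hE : Cen S p E) (hv : Cen S p v) (j : ℤ) :
    ∃ C : ℤ, ∀ g ∈ Lo S p, g ≠ 0 → E.ord g ≤ j → v.ord g ≤ C := by
  classical
  obtain ⟨u, hu⟩ := hA.fg
  refine conn (C := fun D => ∃ C : ℤ, ∀ g ∈ Lo S p, g ≠ 0 → E.ord g ≤ j → D.ord g ≤ C) hA hN hu
    res hG klt bdy hE hv ⟨j, fun _ _ _ k => k⟩ fun s κ T h l d D m D' m' R a b x y ⟨C, hC⟩ => ?_
  obtain ⟨C', k⟩ := Iz.step hA p res l hu (by convert d; unfold P283M.inf; congr) (l.on D m)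
    (l.on D' m') a b x y C
  exact ⟨C', fun g g1 g0 e => k g g1 g0 (hC g g1 g0 e)⟩

end Vale.Agent.P283R.Kw
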